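import Crest.Agent.N76.II.B.Geo
import Crest.Agent.N76.II.B.Top
import Crest.Agent.R070.BR_936
import Crest.Agent.N76.L.WrapTI_Mg
import Crest.Agent.N76.L.WrapSG_Mg
import Crest.Agent.N76.II.CD
import Crest.Agent.N76.II.LP.Bnd
import Crest.Agent.N76.II.LB
import Crest.Agent.N76.II.PhiB
import Crest.Agent.N76.II.St4.Stop
import Crest.Agent.N76.II.L0.Main
import Crest.Agent.N76.II.UT.Main
import Crest.Agent.N76.II.B.Bush
import Crest.Agent.N76.St.Main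
import Crest.Agent.N76.L.Bas1
import Crest.Agent.N76.L.Bas2
import Crest.Agent.N76.L.Core_Mg
import Crest.Agent.N76.II.LP.Fin_Mg
import Crest.Agent.N76.LG.Frame
import Crest.Agent.N76.L.Build
import Crest.Agent.N76.L.TIa_Mg
import Crest.Agent.N76.L.Kill
import Crest.Agent.N76.Bw.Main

-- ▼ part N76/II/B/Rem
section

/-! # Row 76, part II B: the removed sets are covered by few balls (helper8). -/

set_option autoImplicit false

open MeasureTheory Set Metric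
open scoped ENNReal RealInnerProductSpace

namespace Crest.Agent.N76.II.B

open Crest.Agent.N76.Red (V ph)
open Crest.Agent.N76.G

variable {d : ℕ}

lemma prd_ge_one (d : ℕ) (R r : ℝ) : 1 ≤ prd d R r := le_max_left _ _

lemma ssc_pos (n : ℕ) {R : ℝ} (hR : 0 < R) : 0 < Ssc n R := Real.rpow_pos_of_pos hR _

lemma prof_eq_mul (d : ℕ) (R : ℝ) {r : ℝ} (hr : 0 ≤ r) : prof (d + 1) R r = r * prd d R r := by
  unfold prof prd
  rw [mul_max_of_nonneg _ _ hr, mul_max_of_nonneg _ _ hr, Nat.add_sub_cancel, div_pow]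
  congr 2
  · ring
  · ring
  · ring

lemma prd_le_mul (d : ℕ) {R r r' l : ℝ} (hR : 0 < R) (hr : 0 ≤ r) (hr' : 0 ≤ r') (hl : 1 ≤ l)
    (h : r ≤ l * r') : prd d R r ≤ l ^ (d + 1) * prd d R r' := by
  have hS := ssc_pos (d + 1) hR
  have h1 : 1 ≤ l ^ (d + 1) := one_le_pow₀ hl
  have h2 : l ^ d ≤ l ^ (d + 1) := pow_le_pow_right₀ hl (by omega)
  unfold prd
  rw [mul_max_of_nonneg _ _ (by linarith), mul_max_of_nonneg _ _ (by linarith)]
  refine max_le_max (by linarith) (max_le_max ?_ ?_)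
  · calc _ ≤ (l * r' / Ssc (d + 1) R) ^ d := by gcongr
      _ = l ^ d * (r' / Ssc (d + 1) R) ^ d := by rw [mul_div_assoc, mul_pow]
      _ ≤ _ := by gcongr
  · calc _ ≤ (l * r') ^ (d + 1) / √R := by gcongr
      _ = _ := by rw [mul_pow, mul_div_assoc]

lemma yc_near {r c₀ : ℝ} (hr : 0 < r) {D : ℕ} {m : ℤ} {z : V (d + 1) × ℝ}
    (h : |mi r c₀ z - m| ≤ D) :
    ((m : ℝ) - D) * r ≤ yc c₀ z ∧ yc c₀ z ≤ ((m : ℝ) - D) * r + (2 * D + 1) * r := by
  obtain ⟨h1, h2⟩ := abs_le.1 h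
  obtain ⟨h3, h4⟩ := mi_bounds hr c₀ z
  have h5 : (m : ℝ) - D ≤ mi r c₀ z := by exact_mod_cast (by omega : m - D ≤ mi r c₀ z)
  have h6 : (mi r c₀ z : ℝ) ≤ m + D := by exact_mod_cast (by omega : mi r c₀ z ≤ m + D)
  constructor <;> nlinarith

open Classical in
/-- the centres of heavy balls -/
noncomputable def bad (X : Finset (V (d + 1) × ℝ)) (r c₀ : ℝ) (D : ℕ) (θ ρ : ℝ) :
    Finset (V (d + 1) × ℝ) :=
  X.filter fun z => ∃ m : ℤ, |mi r c₀ z - m| ≤ D ∧ θ < ms X pr (ww r c₀ m) (closedBall (pr z) ρ)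

lemma bad_subset (X : Finset (V (d + 1) × ℝ)) (r c₀ : ℝ) (D : ℕ) (θ ρ : ℝ) :
    bad X r c₀ D θ ρ ⊆ X := by
  classical
  exact Finset.filter_subset _ _

lemma cov_bad (X : Finset (V (d + 1) × ℝ)) {r c₀ θ ρ : ℝ} (D : ℕ) (hc : |c₀| ≤ 2) (hr : 0 < r)
    (hρ : 0 < ρ) (hρr : ρ ≤ 4 * r) (hθ : 0 < θ) :
    Cov (bad X r c₀ D θ ρ) id (12 * ρ) (X.card * (D + 5) / (θ * ρ)) := by
  classical
  set s := X.biUnion fun z => Finset.Icc (mi r c₀ z - D) (mi r c₀ z + D) with hs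
  have h := cov_biUnion (p := id) s (X := bad X r c₀ D θ ρ) (r := 6 * (2 * ρ))
    (fun m => (X.filter fun z => θ < ms X pr (ww r c₀ m) (closedBall (pr z) ρ)).filter
      fun z => |mi r c₀ z - m| ≤ D)
    (fun m => (∑ z ∈ X, ww r c₀ m z) / θ * ((2 * D + 1) * r / (2 * ρ) + 1))
    (fun m _ => cov_lift hc (by linarith) (by positivity)
      (cov_mono (cov_heavy X (fun z _ => ww_nonneg hr c₀ m z) hρ.le hθ) (Finset.filter_subset _ _)
        le_rfl le_rfl) fun z hz => yc_near hr (Finset.mem_filter.1 hz).2)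
    fun z hz => by
      obtain ⟨h1, m, h2, h3⟩ := Finset.mem_filter.1 hz
      obtain ⟨h4, h5⟩ := abs_le.1 h2
      exact ⟨m, Finset.mem_biUnion.2 ⟨z, h1, Finset.mem_Icc.2 ⟨by omega, by omega⟩⟩,
        Finset.mem_filter.2 ⟨Finset.mem_filter.2 ⟨h1, h3⟩, h2⟩⟩
  refine cov_mono h subset_rfl (by linarith) ?_
  rw [← Finset.sum_mul, ← Finset.sum_div, Finset.sum_comm]
  have h1 : ∑ z ∈ X, ∑ m ∈ s, ww r c₀ m z ≤ X.card * (1 / r) := by
    calc _ ≤ ∑ _z ∈ X, 1 / r := Finset.sum_le_sum fun z _ => sum_ww_le hr c₀ s z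
      _ = _ := by simp
  have h2 : (2 * D + 1) * r / (2 * ρ) + 1 ≤ (D + 5) * r / ρ := by
    rw [div_add_one (by positivity), div_le_div_iff₀ (by positivity) hρ]
    nlinarith [mul_le_mul_of_nonneg_right hρr hρ.le, mul_pos hr hρ]
  calc _ ≤ X.card * (1 / r) / θ * ((D + 5) * r / ρ) := by gcongr
    _ = _ := by field_simp

lemma ms_small {R : ℝ} {X Z : Finset (V (d + 1) × ℝ)} (hX : Graph R X) (hZ : Z ⊆ X) {c₀ r ρ : ℝ}
    (hc : |c₀| ≤ 2) (hρ : 1 ≤ ρ) (hρr : ρ ≤ r) (m : ℤ) (u : V d × ℝ) :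
    ms Z pr (ww r c₀ m) (closedBall u ρ) ≤ ρ ^ d := by
  have hr : 0 < r := by linarith
  refine (ms_mono (fun z _ => ww_nonneg hr c₀ m z) hZ fun _ _ h => h).trans
    ((ms_ww_le hX hc hr hρ m u).trans ?_)
  have h1 : 1 ≤ r / ρ := by rw [le_div_iff₀ (by linarith)]; linarith
  calc _ ≤ (r / ρ + r / ρ) / 2 * ρ ^ (d + 1) / r := by gcongr
    _ = _ := by field_simp; ring

lemma ms_reg {R B : ℝ} {X Z : Finset (V (d + 1) × ℝ)} (hX : Graph R X) (hZ : Z ⊆ X) {c₀ r : ℝ}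
    {D : ℕ} {m : ℤ} (hc : |c₀| ≤ 2) (hR : 0 < R) (hr : 0 < r) (hB : √R ≤ B * r)
    (hm : ∀ z ∈ Z, |mi r c₀ z - m| ≤ D)
    (hreg : ∀ z ∈ Z, ∀ j : ℕ, (2 : ℝ) ^ j ≤ 4 * r →
      z ∉ bad X r c₀ D (B * prd d R (2 ^ j) / 4 ^ (d + 1)) (2 ^ j))
    (u : V d × ℝ) {ρ : ℝ} (hρ : 1 ≤ ρ) :
    ms Z pr (ww r c₀ m) (closedBall u ρ) ≤ B * prd d R ρ := by
  classical
  have hT : 0 < √R := Real.sqrt_pos.2 hR
  have hB0 : 0 < B := by by_contra h; nlinarith [not_lt.1 h]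
  have hw : ∀ z ∈ X, 0 ≤ ww r c₀ m z := fun z _ => ww_nonneg hr c₀ m z
  have h1 := prd_ge_one d R ρ
  rcases le_or_gt r ρ with h | h
  · refine (ms_mono hw hZ fun _ _ h => h).trans ((ms_ww_le hX hc hr hρ m u).trans ?_)
    have h2 : r / ρ ≤ 1 := by rw [div_le_one (by linarith)]; exact h
    calc _ ≤ (1 + 1) / 2 * ρ ^ (d + 1) / r := by gcongr
      _ = B * (ρ ^ (d + 1) / (B * r)) := by field_simp; ring
      _ ≤ B * (ρ ^ (d + 1) / √R) := by gcongr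
      _ ≤ _ := by
          gcongr
          exact (le_max_right _ _).trans (le_max_right _ _)
  · by_cases hne : ∃ z ∈ Z, pr z ∈ closedBall u ρ
    · obtain ⟨z, hz, hzu⟩ := hne
      obtain ⟨n, hn1, hn2⟩ := exists_nat_pow_near (x := 2 * ρ) (y := (2 : ℝ)) (by linarith)
        (by norm_num)
      have h4 : (2 : ℝ) ^ (n + 1) ≤ 4 * ρ := by rw [pow_succ]; linarith
      have h5 := hreg z hz (n + 1) (by linarith)
      have h6 : ms X pr (ww r c₀ m) (closedBall (pr z) (2 ^ (n + 1))) ≤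
          B * prd d R (2 ^ (n + 1)) / 4 ^ (d + 1) := by
        by_contra hcon
        exact h5 (Finset.mem_filter.2 ⟨hZ hz, m, hm z hz, not_le.1 hcon⟩)
      refine (ms_mono hw hZ fun y _ hy => ?_).trans (h6.trans ?_)
      · rw [mem_closedBall] at hy hzu ⊢
        linarith [dist_triangle_right (pr y) (pr z) u]
      · rw [div_le_iff₀ (by positivity), mul_assoc, mul_comm (prd d R ρ)]
        exact mul_le_mul_of_nonneg_left
          (prd_le_mul d hR (by positivity) (by linarith) (by norm_num) h4) hB0.le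
    · have : ms Z pr (ww r c₀ m) (closedBall u ρ) = 0 := by
        unfold ms
        rw [Finset.filter_eq_empty_iff.2 fun z hz h => hne ⟨z, hz, h⟩, Finset.sum_empty]
      rw [this]; positivity

lemma cov_exc {Y : Finset (V (d + 1) × ℝ)} (K Ms : Finset ℤ)
    (E : ℤ → ℤ → Finset (V (d + 1) × ℝ)) {r c₀ ρ T N : ℝ} {D : ℕ} (hc : |c₀| ≤ 2) (hr : 0 < r)
    (hρ : 0 < ρ) (hρT : ρ ≤ T) (hD : (2 * D + 1) * r ≤ 3 * T) (hN : 0 ≤ N)
    (hE : ∀ k m, Cov (E k m) pr ρ N)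
    (hY : ∀ z ∈ Y, ∃ k ∈ K, ∃ m ∈ Ms, |mi r c₀ z - m| ≤ D ∧ z ∈ E k m) :
    Cov Y id (6 * ρ) (K.card * Ms.card * (N * (4 * T / ρ))) := by
  classical
  have h := cov_biUnion (p := id) (K ×ˢ Ms) (X := Y) (r := 6 * ρ)
    (fun q => (E q.1 q.2).filter fun z => |mi r c₀ z - q.2| ≤ D)
    (fun _ => N * ((2 * D + 1) * r / ρ + 1))
    (fun q _ => cov_lift hc hρ (by positivity)
      (cov_mono (hE q.1 q.2) (Finset.filter_subset _ _) le_rfl le_rfl)
      fun z hz => yc_near hr (Finset.mem_filter.1 hz).2)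
    fun z hz => by
      obtain ⟨k, hk, m, hm, h1, h2⟩ := hY z hz
      exact ⟨(k, m), Finset.mem_product.2 ⟨hk, hm⟩, Finset.mem_filter.2 ⟨h2, h1⟩⟩
  refine cov_mono h subset_rfl le_rfl ?_
  rw [Finset.sum_const, nsmul_eq_mul, Finset.card_product]
  push_cast
  have : (2 * D + 1) * r / ρ + 1 ≤ 4 * T / ρ := by
    rw [div_add_one hρ.ne']; gcongr; linarith
  gcongr

/-- the relevant slices -/
lemma exists_slices (Y : Finset ℝ) {r u : ℝ} (D : ℕ) (hr : 0 < r) (hu : 1 ≤ u) (hD : (D : ℝ) ≤ u)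
    (hY : (Y.card : ℝ) ≤ u) (c₀ : ℝ) : ∃ Ms : Finset ℤ, (Ms.card : ℝ) ≤ 9 * u ^ 3 ∧
      ∀ (z : V (d + 1) × ℝ) (m : ℤ), (∃ y ∈ Y, |yc c₀ z - y| ≤ u ^ 2 * r) →
        |mi r c₀ z - m| ≤ D → m ∈ Ms := by
  classical
  set Q : ℕ := ⌈u ^ 2⌉₊ + 1 + D with hQ
  refine ⟨Y.biUnion fun y => Finset.Icc (⌊y / r⌋ - Q) (⌊y / r⌋ + Q), ?_, ?_⟩
  · have h1 : (Q : ℝ) ≤ u ^ 2 + 2 + u := by
      rw [hQ]; push_cast
      linarith [Nat.ceil_lt_add_one (by positivity : 0 ≤ u ^ 2)]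
    calc _ ≤ ((∑ y ∈ Y, (Finset.Icc (⌊y / r⌋ - Q) (⌊y / r⌋ + Q)).card : ℕ) : ℝ) := by
          exact_mod_cast Finset.card_biUnion_le
      _ = Y.card * (2 * Q + 1) := by
          have : ∀ y ∈ Y, (Finset.Icc (⌊y / r⌋ - Q) (⌊y / r⌋ + Q)).card = 2 * Q + 1 := by
            intro y _; rw [Int.card_Icc]; omega
          rw [Finset.sum_congr rfl this]; simp
      _ ≤ u * (9 * u ^ 2) := by gcongr; nlinarith
      _ = _ := by ring
  · rintro z m ⟨y, hy, hzy⟩ hm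
    refine Finset.mem_biUnion.2 ⟨y, hy, ?_⟩
    obtain ⟨h1, h2⟩ := abs_le.1 hzy
    obtain ⟨h3, h4⟩ := abs_le.1 hm
    have h5 := Nat.le_ceil (u ^ 2)
    have h6 : mi r c₀ z ≤ ⌊y / r⌋ + ⌈u ^ 2⌉₊ := by
      rw [mi, ← Int.floor_add_natCast]
      refine Int.floor_mono ?_
      rw [div_le_iff₀ hr, add_mul, div_mul_cancel₀ _ hr.ne']; nlinarith
    have h7 : ⌊y / r⌋ ≤ mi r c₀ z + ⌈u ^ 2⌉₊ := by
      rw [mi, ← Int.floor_add_natCast]
      refine Int.floor_mono ?_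
      rw [div_le_iff₀ hr, add_mul, div_mul_cancel₀ _ hr.ne']; nlinarith
    exact Finset.mem_Icc.2 ⟨by omega, by omega⟩

lemma en_le_of_cover {n : ℕ} {X Xs : Finset (V n × ℝ)} (J : ℕ) (E F : ℕ → Finset (V n × ℝ))
    (H : L2 n) (h : ∀ z ∈ X, z ∈ Xs ∨ ∃ j < J, z ∈ E j ∨ z ∈ F j) {b : ℝ}
    (hE : ∀ j < J, En (E j) id (fun _ => 1) (fun _ => H) ≤ b)
    (hF : ∀ j < J, En (F j) id (fun _ => 1) (fun _ => H) ≤ b) :
    En X id (fun _ => 1) (fun _ => H) ≤ En Xs id (fun _ => 1) (fun _ => H) + 2 * J * b := by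
  classical
  have key : ∀ (s t : Finset (V n × ℝ)), En (s ∪ t) id (fun _ => 1) (fun _ => H) ≤
      En s id (fun _ => 1) (fun _ => H) + En t id (fun _ => 1) (fun _ => H) := by
    intro s t
    unfold En
    rw [← Finset.sum_union_inter]
    exact le_add_of_nonneg_right (Finset.sum_nonneg fun _ _ => by positivity)
  have h2 : ∀ I ≤ J, En ((Finset.range I).biUnion fun j => E j ∪ F j) id (fun _ => 1)
      (fun _ => H) ≤ 2 * I * b := by
    intro I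
    induction I with
    | zero => intro _; simp [En]
    | succ I ih =>
      intro hI
      rw [Finset.range_add_one, Finset.biUnion_insert]
      refine (key _ _).trans ?_
      have := key (E I) (F I)
      have := hE I (by omega)
      have := hF I (by omega)
      have := ih (by omega)
      push_cast; linarith
  refine le_trans ?_ ((key Xs _).trans (add_le_add le_rfl (h2 J le_rfl)))
  unfold En
  refine Finset.sum_le_sum_of_subset_of_nonneg (fun z hz => ?_) fun _ _ _ => by positivity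
  rcases h z hz with h1 | ⟨j, hj, h1⟩
  · exact Finset.mem_union_left _ h1
  · exact Finset.mem_union_right _ (Finset.mem_biUnion.2
      ⟨j, Finset.mem_range.2 hj, Finset.mem_union.2 h1⟩)

end Crest.Agent.N76.II.B
end

-- ▼ part N76/II/B/Main
section

/-! # Row 76, part II B+D: `TII ⇐ TI1 + LP` (helper8). -/

set_option autoImplicit false

open MeasureTheory Set Metric Filter
open scoped ENNReal RealInnerProductSpace

namespace Crest.Agent.N76.II.B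

open Crest.Agent.N76.Red (V ph)
open Crest.Agent.N76.G

variable {d : ℕ}

lemma win_bounds {b : ℕ} (hb : 1 ≤ b) (M : ℕ) (t : ℝ) :
    (win b M t : ℝ) * (b : ℝ) ^ (2 * M) ≤ t ∧
      t ≤ (win b M t : ℝ) * (b : ℝ) ^ (2 * M) + (b : ℝ) ^ (2 * M) := by
  have hL : (0 : ℝ) < (b : ℝ) ^ (2 * M) := by positivity
  constructor
  · rw [← le_div_iff₀ hL]; exact Int.floor_le _
  · have : t / (b : ℝ) ^ (2 * M) < win b M t + 1 := Int.lt_floor_add_one _
    rw [div_lt_iff₀ hL] at this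
    linarith

open Classical in
/-- removal of the irregular and of the exceptional points -/
lemma exists_regular {R B u G r c₀ c Cp b₁ : ℝ} {b M D J : ℕ} {X : Finset (V (d + 1) × ℝ)}
    {Y : Finset ℝ} {H : L2 (d + 1)} (hX : Graph R X) (hc₀ : |c₀| ≤ 2) (hR : 1 ≤ R) (hb : 1 ≤ b)
    (hLR : (b : ℝ) ^ (2 * M) ≤ R) (hu : 48 ≤ u) (hr : r * u = √R) (hSr : Ssc (d + 1) R ≤ r)
    (hD : (D : ℝ) ≤ u) (huB : u ≤ B) (hG : 0 < G) (hG1 : 180 * 144 ^ (d + 2) * u ^ 3 * G ≤ B)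
    (hJ : ∀ j : ℕ, (2 : ℝ) ^ j ≤ R → j < J) (hY : (Y.card : ℝ) ≤ u)
    (hXY : ∀ z ∈ X, ∃ y ∈ Y, |yc c₀ z - y| ≤ u * √R)
    (hTI : ∀ E ⊆ X, ∀ ρ, 1 ≤ ρ → ρ ≤ √R → Cov E id ρ (R ^ (d + 1) / G / prof (d + 1) R ρ) →
      En E id (fun _ => 1) (fun _ => H) ≤ b₁)
    (hLP : ∀ (Z : Finset (V (d + 1) × ℝ)) (w : V (d + 1) × ℝ → ℝ) (k₀ : ℤ),
      (∀ z ∈ Z, 0 ≤ w z) → (∀ z ∈ Z, pr z ∈ closedBall (0 : V d × ℝ) R) →
      (∀ z ∈ Z, win b M (pr z).2 = k₀) →
      (∀ v ρ, 1 ≤ ρ → ρ ≤ Ssc (d + 1) R → ms Z pr w (closedBall v ρ) ≤ ρ ^ d) →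
      (∀ v ρ, 1 ≤ ρ → ms Z pr w (closedBall v ρ) ≤ B * prd d R ρ) →
      ∃ E : ℕ → Finset (V (d + 1) × ℝ),
        (∀ k, (E k).Nonempty → (2 : ℝ) ^ k ≤ √R / B) ∧
        (∀ k, Cov (E k) pr (2 ^ k) (R ^ d * (b : ℝ) ^ (2 * M) / (B * √R * prd d R (2 ^ k)))) ∧
        ∀ X' ⊆ Z, (∀ z ∈ X', ∀ k, z ∉ E k) → LPout Z X' pr w (√R) ((b : ℝ) ^ (2 * M) / B ^ 20)
          ((b : ℝ) ^ (2 * M)) k₀ B c Cp (Cp * ((b : ℝ) ^ (2 * M) / (B * Ssc (d + 1) R ^ 2)))) :
    ∃ (Xs : Finset (V (d + 1) × ℝ)) (Z : ℤ → ℤ → Finset (V (d + 1) × ℝ)), Xs ⊆ X ∧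
      (∀ k m, Z k m ⊆ X) ∧ (∀ k m, ∀ z ∈ Z k m, |mi r c₀ z - m| ≤ D) ∧
      (∀ k m, LPout (Z k m) ((Xs.filter fun z => win b M z.2 = k).filter
        fun z => |mi r c₀ z - m| ≤ D) pr (ww r c₀ m) (√R) ((b : ℝ) ^ (2 * M) / B ^ 20)
        ((b : ℝ) ^ (2 * M)) k B c Cp (Cp * ((b : ℝ) ^ (2 * M) / (B * Ssc (d + 1) R ^ 2)))) ∧
      En X id (fun _ => 1) (fun _ => H) ≤ En Xs id (fun _ => 1) (fun _ => H) + 2 * J * b₁ := by
  have hR0 : 0 < R := by linarith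
  have hT0 : 0 < √R := Real.sqrt_pos.2 hR0
  have hTR : √R ≤ R := Real.sqrt_le_self_iff.2 (Or.inr hR)
  have hu0 : 0 < u := by linarith
  have hB0 : 0 < B := by linarith
  have hr0 : 0 < r := by
    by_contra h
    nlinarith [not_lt.1 h]
  have hr48 : 48 * r ≤ √R := by nlinarith
  have hL0 : (0 : ℝ) < (b : ℝ) ^ (2 * M) := by positivity
  obtain ⟨L, hL⟩ : ∃ L, L = (b : ℝ) ^ (2 * M) := ⟨_, rfl⟩
  have hwin := win_bounds hb M
  rw [← hL] at hLR hLP hL0 hwin ⊢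
  set bd : ℕ → Finset (V (d + 1) × ℝ) := fun j =>
    if (2 : ℝ) ^ j ≤ 4 * r then bad X r c₀ D (B * prd d R (2 ^ j) / 4 ^ (d + 1)) (2 ^ j) else ∅
    with hbd
  set Xr := X.filter fun z => ∀ j, z ∉ bd j with hXr
  set Z : ℤ → ℤ → Finset (V (d + 1) × ℝ) := fun k m =>
    (Xr.filter fun z => win b M z.2 = k).filter fun z => |mi r c₀ z - m| ≤ D with hZ
  have hZX : ∀ k m, Z k m ⊆ X := fun k m => (Finset.filter_subset _ _).trans
    ((Finset.filter_subset _ _).trans (Finset.filter_subset _ _))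
  have hZm : ∀ k m, ∀ z ∈ Z k m, |mi r c₀ z - m| ≤ D := fun k m z hz =>
    (Finset.mem_filter.1 hz).2
  have hE := fun k m => hLP (Z k m) (ww r c₀ m) k (fun z _ => ww_nonneg hr0 c₀ m z)
    (fun z hz => by
      obtain ⟨h1, h2⟩ := hX.1 z (hZX k m hz)
      rw [mem_closedBall, Prod.dist_eq, max_le_iff]
      exact ⟨by simpa [pr] using (norm_tl_le _).trans h1, by simpa [pr] using h2⟩)
    (fun z hz => (Finset.mem_filter.1 (Finset.mem_filter.1 hz).1).2)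
    (fun v ρ h1 h2 => ms_small hX (hZX k m) hc₀ h1 (h2.trans hSr) m v)
    (fun v ρ h1 => ms_reg hX (hZX k m) hc₀ hR0 hr0 (by nlinarith) (hZm k m) (fun z hz j hj => by
      have := (Finset.mem_filter.1 (Finset.mem_filter.1 (Finset.mem_filter.1 hz).1).1).2 j
      simpa only [hbd, if_pos hj] using this) v h1)
  choose E hE1 hE2 hE3 using hE
  set ex : ℕ → Finset (V (d + 1) × ℝ) := fun j =>
    X.filter fun z => ∃ m : ℤ, |mi r c₀ z - m| ≤ D ∧ z ∈ E (win b M z.2) m j with hex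
  have hcard := card_graph_le hX hR
  have hprof : ∀ l ρ : ℝ, 1 ≤ l → 0 < ρ →
      prof (d + 1) R (l * ρ) ≤ l ^ (d + 2) * (ρ * prd d R ρ) := by
    intro l ρ hl hρ
    rw [prof_eq_mul d R (by positivity)]
    calc _ ≤ l * ρ * (l ^ (d + 1) * prd d R ρ) :=
          mul_le_mul_of_nonneg_left (prd_le_mul d hR0 (by positivity) hρ.le hl le_rfl)
            (by positivity)
      _ = _ := by ring
  have hfin : ∀ l ρ a : ℝ, 1 ≤ l → 0 < ρ → 0 ≤ a → a * l ^ (d + 2) * G ≤ B →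
      a * R ^ (d + 1) / (B * (ρ * prd d R ρ)) ≤ R ^ (d + 1) / G / prof (d + 1) R (l * ρ) := by
    intro l ρ a hl hρ ha h
    have h1 := prd_ge_one d R ρ
    have h2 : 0 < prof (d + 1) R (l * ρ) := lt_of_lt_of_le (by positivity) (le_max_left _ _)
    refine le_trans ?_ (div_le_div_of_nonneg_left (by positivity) h2 (hprof l ρ hl hρ))
    rw [div_div, div_le_div_iff₀ (by positivity) (by positivity)]
    calc _ = (a * l ^ (d + 2) * G) * (R ^ (d + 1) * (ρ * prd d R ρ)) := by ring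
      _ ≤ B * (R ^ (d + 1) * (ρ * prd d R ρ)) := by gcongr
      _ = _ := by ring
  have hu3 : u ≤ u ^ 3 := le_self_pow₀ (by linarith) (by norm_num)
  refine ⟨Xr.filter fun z => ∀ j, z ∉ ex j, Z,
    (Finset.filter_subset _ _).trans (Finset.filter_subset _ _), hZX, hZm, fun k m => ?_,
    en_le_of_cover J bd ex H (fun z hz => ?_) (fun j _ => ?_) fun j _ => ?_⟩
  · refine hE3 k m _ (Finset.filter_subset_filter _ (Finset.filter_subset_filter _
      (Finset.filter_subset _ _))) fun z hz j hj => ?_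
    obtain ⟨h1, h2⟩ := Finset.mem_filter.1 hz
    obtain ⟨h3, rfl⟩ := Finset.mem_filter.1 h1
    obtain ⟨h4, h5⟩ := Finset.mem_filter.1 h3
    exact h5 j (Finset.mem_filter.2 ⟨(Finset.mem_filter.1 h4).1, m, h2, hj⟩)
  · by_cases h1 : ∃ j, z ∈ bd j
    · obtain ⟨j, hj⟩ := h1
      refine Or.inr ⟨j, hJ j ?_, Or.inl hj⟩
      by_contra h
      simp only [hbd] at hj
      rw [if_neg (by linarith only [not_le.1 h, hr48, hTR, hr0])] at hj
      simp at hj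
    by_cases h2 : ∃ j, z ∈ ex j
    · obtain ⟨j, hj⟩ := h2
      refine Or.inr ⟨j, hJ j ?_, Or.inr hj⟩
      obtain ⟨-, m, -, h3⟩ := Finset.mem_filter.1 hj
      exact (hE1 _ m j ⟨z, h3⟩).trans ((div_le_self hT0.le (by linarith only [huB, hu])).trans hTR)
    push Not at h1 h2
    exact Or.inl (Finset.mem_filter.2 ⟨Finset.mem_filter.2 ⟨hz, h1⟩, h2⟩)
  · have h2j : (1 : ℝ) ≤ 2 ^ j := one_le_pow₀ (by norm_num)
    have h1 := prd_ge_one d R (2 ^ j)
    by_cases hj : (2 : ℝ) ^ j ≤ 4 * r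
    · simp only [hbd, if_pos hj]
      refine hTI _ (bad_subset _ _ _ _ _ _) (12 * 2 ^ j) (by linarith only [h2j])
        (by linarith only [hj, hr48]) (cov_mono (cov_bad X D hc₀ hr0 (by positivity) hj
          (by positivity)) subset_rfl le_rfl (le_trans ?_ (hfin 12 (2 ^ j)
            (12 ^ (d + 1) * (2 * u)) (by norm_num) (by positivity) (by positivity) ?_)))
      · calc _ ≤ (3 * R) ^ (d + 1) * (2 * u) / (B * prd d R (2 ^ j) / 4 ^ (d + 1) * 2 ^ j) := by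
              gcongr; linarith only [hD, hu]
          _ = _ := by
              rw [mul_pow, show (12 : ℝ) = 3 * 4 by norm_num, mul_pow]; field_simp
      · refine le_trans ?_ hG1
        have h3 : (12 : ℝ) ^ (d + 1) * 12 ^ (d + 2) ≤ 144 ^ (d + 2) := by
          rw [show (144 : ℝ) = 12 * 12 by norm_num, mul_pow]
          gcongr
          · norm_num
          · omega
        calc _ = 2 * (12 ^ (d + 1) * 12 ^ (d + 2)) * u * G := by ring
          _ ≤ _ := by gcongr; norm_num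
    · simp only [hbd, if_neg hj]
      refine hTI _ (Finset.empty_subset _) 1 le_rfl (Real.one_le_sqrt.2 hR) ⟨∅, ?_, by simp⟩
      have h2 : 0 < prof (d + 1) R 1 := lt_of_lt_of_le one_pos (le_max_left _ _)
      simp only [Finset.card_empty, Nat.cast_zero]; positivity
  · have h2j : (1 : ℝ) ≤ 2 ^ j := one_le_pow₀ (by norm_num)
    have h1 := prd_ge_one d R (2 ^ j)
    by_cases hne : (ex j).Nonempty
    · obtain ⟨z₀, hz₀⟩ := hne
      obtain ⟨-, m₀, -, h3⟩ := Finset.mem_filter.1 hz₀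
      have h4 := hE1 _ m₀ j ⟨z₀, h3⟩
      rw [le_div_iff₀ hB0] at h4
      have h5 : 6 * 2 ^ j ≤ √R := by nlinarith only [h4, h2j, hu, huB]
      obtain ⟨Ms, hMs1, hMs2⟩ := exists_slices (d := d) Y D hr0 (by linarith only [hu]) hD hY c₀
      have hK := card_windows hL0 hLR (K := X.image fun z => win b M z.2) fun k hk => by
        obtain ⟨z, hz, rfl⟩ := Finset.mem_image.1 hk
        obtain ⟨h6, h7⟩ := hwin z.2
        obtain ⟨h8, h9⟩ := abs_le.1 (hX.1 z hz).2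
        exact abs_le.2 ⟨by linarith only [h7, h8, hLR], by linarith only [h6, h9, hR0]⟩
      refine hTI _ (Finset.filter_subset _ _) (6 * 2 ^ j) (by linarith only [h2j]) h5
        (cov_mono (cov_exc (X.image fun z => win b M z.2) Ms (fun k m => E k m j) (T := √R) hc₀ hr0
          (by positivity) (by linarith only [h5, h2j]) (by nlinarith only [hD, hr, hr0, hu])
          (by positivity) (fun k m => hE2 k m j) fun z hz => ?_) subset_rfl le_rfl
          (le_trans ?_ (hfin 6 (2 ^ j) (180 * u ^ 3) (by norm_num) (by positivity)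
            (by positivity) ?_)))
      · obtain ⟨h6, m, h7, h8⟩ := Finset.mem_filter.1 hz
        obtain ⟨y, hy, h9⟩ := hXY z h6
        refine ⟨_, Finset.mem_image_of_mem _ h6, m, hMs2 z m ⟨y, hy, h9.trans (le_of_eq ?_)⟩ h7,
          h7, h8⟩
        rw [← hr]; ring
      · calc _ ≤ 5 * (R / L) * (9 * u ^ 3) *
              (R ^ d * L / (B * √R * prd d R (2 ^ j)) * (4 * √R / 2 ^ j)) := by gcongr
          _ = _ := by field_simp; ring
      · refine le_trans ?_ hG1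
        calc _ = 180 * 6 ^ (d + 2) * u ^ 3 * G := by ring
          _ ≤ _ := by gcongr; norm_num
    · rw [Finset.not_nonempty_iff_eq_empty.1 hne]
      refine hTI _ (Finset.empty_subset _) 1 le_rfl (Real.one_le_sqrt.2 hR) ⟨∅, ?_, by simp⟩
      have h2 : 0 < prof (d + 1) R 1 := lt_of_lt_of_le one_pos (le_max_left _ _)
      simp only [Finset.card_empty, Nat.cast_zero]; positivity

end Crest.Agent.N76.II.B
end

-- ▼ part N76/II/B/Final
section

/-! # Row 76, part II B+D: the choice of the parameters (helper8). -/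

set_option autoImplicit false

open MeasureTheory Set Metric Filter
open scoped ENNReal RealInnerProductSpace

namespace Crest.Agent.N76.II.B

open Crest.Agent.N76.Red (V ph)
open Crest.Agent.N76.G

lemma exists_R (n : ℕ) {α δ : ℝ} (hα : 0 < α) (hδ : 0 < δ) (C₀ R₀ : ℝ) : ∃ R₁ : ℝ, 1 ≤ R₁ ∧
    ∀ R, R₁ ≤ R → R₀ ≤ R ∧ C₀ ≤ R ^ α ∧ (∀ j : ℕ, (2 : ℝ) ^ j ≤ R → (j : ℝ) < R ^ δ) ∧
      R * (3 * R) ^ n * (2 * Real.exp (1 - R ^ α)) ≤ 1 := by
  have h1 := eventually_ge_atTop R₀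
  have h2 := (tendsto_rpow_atTop hα).eventually_ge_atTop C₀
  have h3 := (isLittleO_log_rpow_atTop hδ).bound (by norm_num : (0 : ℝ) < 1 / 2)
  have h4 := ((tendsto_rpow_mul_exp_neg_mul_atTop_nhds_zero (((n : ℝ) + 1) / α) 1 one_pos).comp
    (tendsto_rpow_atTop hα)).eventually_le_const
    (by positivity : (0 : ℝ) < 1 / (3 ^ n * (2 * Real.exp 1)))
  obtain ⟨R₁, h⟩ := eventually_atTop.1 (h1.and (h2.and (h3.and h4)))
  refine ⟨max R₁ 1, le_max_right _ _, fun R hR => ?_⟩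
  obtain ⟨g1, g2, g3, g4⟩ := h R (le_trans (le_max_left _ _) hR)
  have hR1 : 1 ≤ R := le_trans (le_max_right _ _) hR
  have hR0 : 0 < R := by linarith
  refine ⟨g1, g2, fun j hj => ?_, ?_⟩
  · have h5 := Real.log_le_log (by positivity) hj
    rw [Real.log_pow] at h5
    have h6 : 0 < R ^ δ := by positivity
    rw [Real.norm_of_nonneg (Real.log_nonneg hR1), Real.norm_of_nonneg h6.le] at g3
    have h7 := Real.log_two_gt_d9
    have h8 : (0 : ℝ) ≤ j := Nat.cast_nonneg j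
    nlinarith
  · simp only [Function.comp] at g4
    rw [← Real.rpow_mul hR0.le, mul_div_cancel₀ _ hα.ne', le_div_iff₀ (by positivity),
      show (n : ℝ) + 1 = ((n + 1 : ℕ) : ℝ) by push_cast; ring, Real.rpow_natCast] at g4
    refine le_trans (le_of_eq ?_) g4
    rw [sub_eq_add_neg, Real.exp_add, mul_pow, neg_mul, one_mul]; ring

lemma exists_base {r : ℝ} (hr : 1 ≤ r) {M : ℕ} (hM : 1 ≤ M) : ∃ b : ℕ, 1 ≤ b ∧
    (b : ℝ) ^ (2 * M) ≤ r ^ 2 ∧ r ^ 2 ≤ 4 ^ M * (b : ℝ) ^ (2 * M) := by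
  set x := r ^ ((M : ℝ)⁻¹) with hx
  have hx1 : 1 ≤ x := Real.one_le_rpow hr (by positivity)
  have hxM : x ^ M = r := Real.rpow_inv_natCast_pow (by linarith) (by omega)
  have hb1 : 1 ≤ ⌊x⌋₊ := Nat.le_floor (by simpa using hx1)
  have hb2 : (1 : ℝ) ≤ ⌊x⌋₊ := by exact_mod_cast hb1
  refine ⟨⌊x⌋₊, hb1, ?_, ?_⟩
  · rw [← hxM, ← pow_mul, mul_comm M]
    gcongr
    exact Nat.floor_le (by linarith)
  · have h1 : x ≤ 2 * ⌊x⌋₊ := by linarith [Nat.lt_floor_add_one x]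
    rw [← hxM, ← pow_mul, mul_comm M, show (4 : ℝ) = 2 ^ 2 by norm_num, ← pow_mul, ← mul_pow]
    gcongr

lemma sigma_pow {ε x c : ℝ} {n : ℕ} (hε : 0 < ε) (hε3 : ε ^ (((n : ℝ) + 1)⁻¹) ≤ 3) (hc : 0 ≤ c)
    (hx : c * (n + 1) ≤ x) : (ε ^ (((n : ℝ) + 1)⁻¹)) ^ x ≤ 3 ^ x * ε ^ c := by
  set σ := ε ^ (((n : ℝ) + 1)⁻¹) with hσ
  have hσ0 : 0 < σ := by positivity
  have h1 : ε ^ c = σ ^ (c * (n + 1)) := by
    rw [hσ, ← Real.rpow_mul hε.le]; congr 1; field_simp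
  have h2 : 0 ≤ c * (n + 1) := by positivity
  calc σ ^ x = σ ^ (x - c * (n + 1)) * σ ^ (c * (n + 1)) := by
        rw [← Real.rpow_add hσ0]; congr 1; ring
    _ ≤ 3 ^ x * σ ^ (c * (n + 1)) := by
        gcongr
        calc _ ≤ 3 ^ (x - c * (n + 1)) := Real.rpow_le_rpow hσ0.le hε3 (by linarith)
          _ ≤ _ := Real.rpow_le_rpow_of_exponent_le (by norm_num) (by linarith)
    _ = _ := by rw [h1]

lemma params {R u B L r T : ℝ} {D M : ℕ} (hu : 48 ≤ u) (hM : 4 ^ M ≤ u) (hB : u ^ 10 ≤ B)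
    (hT : B ^ 50 ≤ T) (hR : T ^ 2 = R) (hr : r * u = T) (hL : r ^ 2 ≤ 4 ^ M * L)
    (hD : (D : ℝ) ≤ u) : R / B ≤ L ∧ r + R / r + (2 * D + 2) * r ≤ L / B ^ 20 ∧
      B * T + 10 * R * (1 / B ^ 22) ≤ L / B ^ 20 := by
  have hu1 : 1 ≤ u := by linarith
  have hu3 : u ^ 3 ≤ B := (pow_le_pow_right₀ hu1 (by norm_num)).trans hB
  have hu2 : u ^ 2 ≤ B := (pow_le_pow_right₀ hu1 (by norm_num)).trans hB
  have huB : u ≤ B := (le_self_pow₀ hu1 (by norm_num)).trans hB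
  have hB1 : 48 ≤ B := hu.trans huB
  have hB0 : 0 < B := by linarith
  have hT0 : 0 < T := lt_of_lt_of_le (by positivity) hT
  have hr0 : 0 < r := by
    by_contra h
    nlinarith [not_lt.1 h]
  have hL0 : 0 < L := by
    by_contra h
    have : (4 : ℝ) ^ M * L ≤ 0 := mul_nonpos_of_nonneg_of_nonpos (by positivity) (not_lt.1 h)
    nlinarith
  have h1 : R / B ≤ L := by
    rw [div_le_iff₀ hB0, ← hR, ← hr]
    calc (r * u) ^ 2 = r ^ 2 * u ^ 2 := by ring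
      _ ≤ (4 ^ M * L) * u ^ 2 := by gcongr
      _ ≤ (u * L) * u ^ 2 := by gcongr
      _ = L * u ^ 3 := by ring
      _ ≤ _ := by gcongr
  have h2 : B * T + 10 * R * (1 / B ^ 22) ≤ L / B ^ 20 := by
    have h3 : 2 * B ^ 22 ≤ T := by
      refine le_trans ?_ hT
      calc 2 * B ^ 22 ≤ B * B ^ 22 := by gcongr; linarith
        _ = B ^ 23 := by ring
        _ ≤ _ := pow_le_pow_right₀ (by linarith) (by norm_num)
    have h4 : B * T ≤ R / B / B ^ 20 / 2 := by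
      rw [div_div, div_div, le_div_iff₀ (by positivity), ← hR]
      calc _ = T * (2 * B ^ 22) := by ring
        _ ≤ T * T := by gcongr
        _ = _ := by ring
    have h5 : 10 * R * (1 / B ^ 22) ≤ R / B / B ^ 20 / 2 := by
      have hR0 : 0 < R := by rw [← hR]; positivity
      rw [mul_one_div, div_div, div_div, div_le_div_iff₀ (by positivity) (by positivity)]
      calc _ = R * (20 * B ^ 21) := by ring
        _ ≤ R * (B * B ^ 21) := by gcongr; linarith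
        _ = _ := by ring
    have h6 : R / B / B ^ 20 ≤ L / B ^ 20 := by gcongr
    linarith
  refine ⟨h1, le_trans ?_ (le_trans (le_add_of_nonneg_right (by rw [← hR]; positivity)) h2), h2⟩
  have h7 : R / r = u * T := by rw [← hR, ← hr]; field_simp
  have h8 : r ≤ T := by nlinarith
  have h9 : (2 * D + 2) * r ≤ 4 * T := by nlinarith
  have h10 : 6 * u ≤ B := by nlinarith
  rw [h7]
  nlinarith

set_option maxHeartbeats 1000000 in
theorem tii_of (d : ℕ) (hd : 1 ≤ d) (hTI : TI1 (d + 1)) (hLP : LP d) : TII d := by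
  classical
  obtain ⟨a₀, ha₀, c, hc, hLP⟩ := hLP
  obtain ⟨a, ha, haa, ha1⟩ : ∃ a : ℝ, 0 < a ∧ a ≤ a₀ ∧ a ≤ 1 / 100 :=
    ⟨min a₀ (1 / 100), lt_min ha₀ (by norm_num), min_le_left _ _, min_le_right _ _⟩
  obtain ⟨M, hM, Cp, R₀, hCp, -, hLP⟩ := hLP a ha
  obtain ⟨δ, Ct, hδ, hCt, hTI⟩ := hTI (a / 2) (by positivity)
  obtain ⟨Cm, hCm, hmain⟩ := main_est d hd hc
  refine ⟨min δ (a / 10), lt_min hδ (by positivity), fun α hα hα0 => ?_⟩
  have hαδ : α ≤ δ := hα0.trans (min_le_left _ _)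
  have hαa : α ≤ a / 10 := hα0.trans (min_le_right _ _)
  obtain ⟨R₁, hR₁, hev⟩ := exists_R (d + 1) hα (half_pos hδ)
    (48 + 4 ^ M + 180 * 144 ^ (d + 2)) R₀
  have hd1 : (1 : ℝ) ≤ d := by exact_mod_cast hd
  obtain ⟨cf, hcf, hcf1, hcf2, hcf3, hcf4⟩ : ∃ cf : ℝ, 0 < cf ∧ cf * (d + 1) ≤ c / 2 ∧
      cf * (d + 1) ≤ 1 / (2 * ((d : ℝ) + 2)) ∧ cf ≤ α ∧ cf ≤ δ / 2 := by
    refine ⟨min (min (c / 2 / (d + 1)) (1 / (2 * ((d : ℝ) + 2)) / (d + 1))) (min α (δ / 2)),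
      by positivity, ?_, ?_, ?_, ?_⟩
    · rw [← le_div_iff₀ (by positivity)]; exact (min_le_left _ _).trans (min_le_left _ _)
    · rw [← le_div_iff₀ (by positivity)]; exact (min_le_left _ _).trans (min_le_right _ _)
    · exact (min_le_right _ _).trans (min_le_left _ _)
    · exact (min_le_right _ _).trans (min_le_right _ _)
  obtain ⟨K, hK⟩ : ∃ K : ℝ, K = 3 ^ (c / 2) + 3 ^ (1 / (2 * ((d : ℝ) + 2))) := ⟨_, rfl⟩
  have hK0 : 0 ≤ K := by rw [hK]; positivity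
  refine ⟨cf, Cm * (Cp * (K + 2) + 1) + 4 * Ct + (3 * R₁) ^ (d + 1), hcf, by positivity, ?_⟩
  intro R hR X hX c₀ Y hY hXY H hH1 hH2
  have hR0 : 0 < R := by linarith
  obtain ⟨e, he⟩ : ∃ e : ℝ, e = ((d : ℝ) + 1) / (d + 2) := ⟨_, rfl⟩
  have he1 : 1 / 2 ≤ e := by rw [he, le_div_iff₀ (by positivity)]; linarith
  rw [← he] at hmain ⊢
  have hone : 1 ≤ R ^ e * R ^ (-cf) := by
    rw [← Real.rpow_add hR0]; exact Real.one_le_rpow hR (by linarith)
  obtain ⟨ε, hε⟩ : ∃ ε : ℝ, ε = (X.card : ℝ) / R ^ (d + 1) := ⟨_, rfl⟩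
  have hε0 : 0 ≤ ε := by rw [hε]; positivity
  rw [← hε]
  have hcard := card_graph_le hX hR
  have hP : 0 ≤ R ^ e * ε ^ cf := by positivity
  have hQ : 0 ≤ R ^ e * R ^ (-cf) := by positivity
  have hH0 : 0 ≤ ‖H‖ ^ 2 := by positivity
  have hC1 : 0 ≤ Cm * (Cp * (K + 2) + 1) + 4 * Ct := by positivity
  have hC2 : 0 ≤ (3 * R₁) ^ (d + 1) := by positivity
  rcases lt_or_ge R R₁ with hRR | hRR
  · refine (en_le_card (fun _ _ => le_rfl) H).trans (mul_le_mul_of_nonneg_right ?_ hH0)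
    have : (3 * R) ^ (d + 1) ≤ (3 * R₁) ^ (d + 1) := by gcongr
    rw [mul_assoc, mul_add]
    nlinarith only [this, hcard, hP, hone, hC1, hC2]
  rcases X.eq_empty_or_nonempty with hXe | hXe
  · rw [hXe]; simp only [En, Finset.sum_empty]; positivity
  obtain ⟨hR₀, hu, hJ, hexp⟩ := hev R hRR
  have hT2 : √R ^ 2 = R := Real.sq_sqrt hR0.le
  have hT0 : 0 < √R := Real.sqrt_pos.2 hR0
  have hpw : ∀ x : ℝ, ∀ n : ℕ, (R ^ x) ^ n = R ^ (x * n) := fun x n => by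
    rw [Real.rpow_mul hR0.le, Real.rpow_natCast]
  have hle : ∀ {x y : ℝ}, x ≤ y → R ^ x ≤ R ^ y := fun h => Real.rpow_le_rpow_of_exponent_le hR h
  have hB10 : (R ^ α) ^ 10 ≤ R ^ a := by rw [hpw]; exact hle (by push_cast; linarith)
  have hB50 : (R ^ a) ^ 50 ≤ √R := by
    rw [hpw, Real.sqrt_eq_rpow]; exact hle (by push_cast; linarith)
  have hG5 : (R ^ α) ^ 5 ≤ R ^ (a / 2) := by rw [hpw]; exact hle (by push_cast; linarith)
  have hGG : R ^ (a / 2) * R ^ (a / 2) = R ^ a := by rw [← Real.rpow_add hR0, add_halves]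
  have hSu : Ssc (d + 1) R * R ^ α ≤ √R := by
    rw [Ssc, ← Real.rpow_add hR0, Real.sqrt_eq_rpow]
    refine hle ?_
    have : 1 / (2 * (((d + 1 : ℕ) : ℝ) + 1)) ≤ 1 / 6 := by
      push_cast; gcongr; linarith
    linarith
  have hS1 : 1 ≤ Ssc (d + 1) R := Real.one_le_rpow hR (by positivity)
  have hS2 : R / Ssc (d + 1) R ^ 2 = R ^ e := by
    rw [Ssc, hpw, div_eq_iff (by positivity), ← Real.rpow_add hR0, he]
    conv_lhs => rw [← Real.rpow_one R]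
    congr 1; push_cast; field_simp; ring
  have huinv : (R ^ α)⁻¹ ≤ R ^ (-cf) := by rw [← Real.rpow_neg hR0.le]; exact hle (by linarith)
  have hTI' := fun E (hE : E ⊆ X) => hTI R hR E ⟨fun z hz => hX.1 z (hE hz),
    fun z hz z' hz' => hX.2 z (hE hz) z' (hE hz')⟩ H hH1 (EuclideanSpace.single 0 1) c₀ (by simp)
    (by
      filter_upwards [hH2] with ξ h h'
      refine h (lt_of_le_of_lt (div_le_div_of_nonneg_right (hle hαδ) hT0.le) ?_)
      simpa [EuclideanSpace.inner_single_left] using h')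
  have hx1 : R ^ (((d + 1 : ℕ) : ℝ) - a / 2) = R ^ (d + 1) / R ^ (a / 2) := by
    rw [Real.rpow_sub hR0, Real.rpow_natCast]
  have hx2 : R ^ (((d + 1 : ℕ) : ℝ) / (((d + 1 : ℕ) : ℝ) + 1) - δ) = R ^ e * R ^ (-δ) := by
    rw [← Real.rpow_add hR0, he]; congr 1; push_cast; ring
  rw [hx1, hx2] at hTI'
  have hJ2 : (⌈R ^ (δ / 2)⌉₊ : ℝ) * R ^ (-δ) ≤ 2 * R ^ (-cf) := by
    have h1 : 1 ≤ R ^ (δ / 2) := Real.one_le_rpow hR (by positivity)
    have h2 := Nat.ceil_lt_add_one (by positivity : 0 ≤ R ^ (δ / 2))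
    calc _ ≤ 2 * R ^ (δ / 2) * R ^ (-δ) := by gcongr; linarith
      _ = 2 * R ^ (δ / 2 + -δ) := by rw [Real.rpow_add hR0]; ring
      _ ≤ _ := by gcongr; linarith
  have hLP' := hLP R hR₀ (R ^ a) le_rfl (hle haa)
  have hG0 : 0 < R ^ (a / 2) := by positivity
  generalize R ^ α = u at *
  generalize R ^ a = B at *
  generalize R ^ (a / 2) = G at *
  have p1 : (0 : ℝ) ≤ 4 ^ M := by positivity
  have p2 : (0 : ℝ) ≤ 180 * 144 ^ (d + 2) := by positivity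
  have hu48 : 48 ≤ u := by linarith only [hu, p1, p2]
  have hu1 : 1 ≤ u := by linarith only [hu48]
  have hu0 : 0 < u := by linarith only [hu48]
  have huB : u ≤ B := (le_self_pow₀ hu1 (by norm_num)).trans hB10
  have hB1 : 1 ≤ B := hu1.trans huB
  have hB0 : 0 < B := by linarith only [hB1]
  have hBT : B ≤ √R := (le_self_pow₀ hB1 (by norm_num)).trans hB50
  obtain ⟨r, hr⟩ : ∃ r, r * u = √R := ⟨√R / u, by field_simp⟩
  have hSr : Ssc (d + 1) R ≤ r := le_of_mul_le_mul_right (hr ▸ hSu) hu0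
  have hr1 : 1 ≤ r := hS1.trans hSr
  have hr0 : 0 < r := by linarith only [hr1]
  have hur : u / √R = 1 / r := by rw [← hr]; field_simp
  rw [hur] at hH2
  by_cases hc₀ : 2 < |c₀|
  · have : H = 0 := by
      refine Lp.eq_zero_iff_ae_eq_zero.2 ?_
      filter_upwards [hH1, hH2] with ξ h1 h2
      by_cases h : 1 < ‖ξ‖
      · exact h1 h
      · refine h2 ?_
        have h3 : |ξ 0| ≤ ‖ξ‖ := PiLp.norm_apply_le ξ 0
        have h4 := abs_sub_abs_le_abs_sub c₀ (ξ 0)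
        have h5 : 1 / r ≤ 1 := by rw [div_le_one hr0]; exact hr1
        rw [abs_sub_comm] at h4
        linarith only [h3, h4, h5, hc₀, not_lt.1 h]
    simp [this, En]
  rw [not_lt] at hc₀
  obtain ⟨b, hb, hbL, hbL'⟩ := exists_base hr1 hM
  have hD : (⌊u⌋₊ : ℝ) ≤ u := Nat.floor_le hu0.le
  obtain ⟨q1, q2, q3⟩ := params hu48 (by linarith only [hu, p2]) hB10 hB50 hT2 hr hbL' hD
  have hrR : r ^ 2 ≤ R := by
    rw [← hT2, ← hr]; gcongr; exact le_mul_of_one_le_right hr0.le hu1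
  have hLR := hbL.trans hrR
  obtain ⟨Xs, Z, s1, s2, s3, s4, s5⟩ := exists_regular (c := c) (Cp := Cp) (M := M)
    (J := ⌈R ^ (δ / 2)⌉₊) hX hc₀ hR hb hLR hu48 hr hSr hD huB hG0
    (by
      calc 180 * 144 ^ (d + 2) * u ^ 3 * G ≤ u * u ^ 3 * G := by
            gcongr; linarith only [hu, p1]
        _ = u ^ 4 * G := by ring
        _ ≤ G * G := by gcongr; exact (pow_le_pow_right₀ hu1 (by norm_num)).trans hG5
        _ = B := hGG)
    (fun j hj => Nat.lt_ceil.2 (hJ j hj)) hY hXY hTI' (hLP' b q1 hLR _ · pr)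
  have hL0 : (0 : ℝ) < (b : ℝ) ^ (2 * M) := by positivity
  have hw := win_bounds hb M
  generalize (b : ℝ) ^ (2 * M) = L at *
  have hε1 : 0 < ε := by
    have : (0 : ℝ) < X.card := by exact_mod_cast hXe.card_pos
    rw [hε]; positivity
  have hσp : (ε ^ (((d : ℝ) + 1)⁻¹)) ^ (d + 1) = ε := by
    have := Real.rpow_inv_natCast_pow hε0 (n := d + 1) (by omega)
    push_cast at this; exact this
  have hσ3 : ε ^ (((d : ℝ) + 1)⁻¹) ≤ 3 := by
    refine le_of_pow_le_pow_left₀ (n := d + 1) (by omega) (by norm_num) ?_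
    rw [hσp, hε, div_le_iff₀ (by positivity), ← mul_pow]; exact hcard
  have hm := hmain R r L (√R) _ B c₀ (ε ^ (((d : ℝ) + 1)⁻¹)) Cp _ ⌊u⌋₊ X Xs (fun z => win b M z.2)
    Z H hX s1 hc₀ hr1 hL0 hbL hLR (hB1.trans hBT) hB1 q2 q3 (by positivity) hσ3
    (by rw [hσp, hε]; field_simp) hCp (by positivity) (fun z _ => hw z.2) s2 s3 s4 hH1 hH2
  have t1 : (ε ^ (((d : ℝ) + 1)⁻¹)) ^ (c / 2) + (ε ^ (((d : ℝ) + 1)⁻¹)) ^ (1 / (2 * ((d : ℝ) + 2)))
      ≤ K * ε ^ cf := by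
    rw [hK, add_mul]
    exact add_le_add (sigma_pow hε1 hσ3 hcf.le hcf1) (sigma_pow hε1 hσ3 hcf.le hcf2)
  have t2 : L * (1 / r) ^ (2 / ((d : ℝ) + 2)) ≤ R ^ e * R ^ (-cf) := by
    have h1 : r ^ 2 * (1 / r) ^ (2 / ((d : ℝ) + 2)) = (r ^ 2) ^ e := by
      rw [one_div, Real.inv_rpow hr0.le, ← Real.rpow_neg hr0.le, ← Real.rpow_two,
        ← Real.rpow_add hr0, ← Real.rpow_mul hr0.le, he]
      congr 1; field_simp; ring
    have h2 : R ^ e = (r ^ 2) ^ e * (u ^ 2) ^ e := by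
      rw [← Real.mul_rpow (by positivity) (by positivity), ← mul_pow, hr, hT2]
    have h3 : u ≤ (u ^ 2) ^ e := by
      rw [← Real.rpow_two, ← Real.rpow_mul hu0.le]
      conv_lhs => rw [← Real.rpow_one u]
      exact Real.rpow_le_rpow_of_exponent_le hu1 (by linarith only [he1])
    calc _ ≤ r ^ 2 * (1 / r) ^ (2 / ((d : ℝ) + 2)) := by gcongr
      _ = (r ^ 2) ^ e * u * u⁻¹ := by rw [h1]; field_simp
      _ ≤ (r ^ 2) ^ e * (u ^ 2) ^ e * R ^ (-cf) := by gcongr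
      _ = _ := by rw [h2]
  have t3 : R / L * (Cp * (L / (B * Ssc (d + 1) R ^ 2)) +
      X.card * (Real.exp (-√R) + Real.exp (-(⌊u⌋₊ : ℝ)))) ≤ (Cp + 1) * (R ^ e * R ^ (-cf)) := by
    have h1 : R / L * (Cp * (L / (B * Ssc (d + 1) R ^ 2))) = Cp * (R ^ e * B⁻¹) := by
      rw [← hS2]; field_simp
    have h2 : B⁻¹ ≤ R ^ (-cf) := (inv_anti₀ hu0 huB).trans huinv
    have h3 : R / L ≤ R := by
      rw [div_le_iff₀ hB0] at q1
      rw [div_le_iff₀ hL0]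
      have : B ≤ R := hBT.trans (Real.sqrt_le_self_iff.2 (Or.inr hR))
      nlinarith only [q1, this, hL0]
    have h4 : Real.exp (-√R) + Real.exp (-(⌊u⌋₊ : ℝ)) ≤ 2 * Real.exp (1 - u) := by
      have a1 : Real.exp (-√R) ≤ Real.exp (1 - u) :=
        Real.exp_le_exp.2 (by linarith only [huB, hBT])
      have a2 : Real.exp (-(⌊u⌋₊ : ℝ)) ≤ Real.exp (1 - u) :=
        Real.exp_le_exp.2 (by linarith only [Nat.lt_floor_add_one u])
      linarith only [a1, a2]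
    have h5 : R / L * (X.card * (Real.exp (-√R) + Real.exp (-(⌊u⌋₊ : ℝ)))) ≤ 1 := by
      refine le_trans ?_ hexp
      rw [mul_assoc]; gcongr
    have h6 : Cp * (R ^ e * B⁻¹) ≤ Cp * (R ^ e * R ^ (-cf)) := by gcongr
    rw [mul_add, h1]
    linarith only [h5, h6, hone]
  refine s5.trans ((add_le_add hm le_rfl).trans ?_)
  have t4 : 2 * (⌈R ^ (δ / 2)⌉₊ : ℝ) * (Ct * (R ^ e * R ^ (-δ)) * ‖H‖ ^ 2) ≤
      4 * Ct * (R ^ e * R ^ (-cf)) * ‖H‖ ^ 2 := by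
    calc _ = 2 * Ct * R ^ e * ((⌈R ^ (δ / 2)⌉₊ : ℝ) * R ^ (-δ)) * ‖H‖ ^ 2 := by ring
      _ ≤ 2 * Ct * R ^ e * (2 * R ^ (-cf)) * ‖H‖ ^ 2 := by gcongr
      _ = _ := by ring
  refine (add_le_add (mul_le_mul_of_nonneg_right (mul_le_mul_of_nonneg_left (add_le_add
    (mul_le_mul_of_nonneg_left (add_le_add (mul_le_mul_of_nonneg_right t1 (by positivity)) t2) hCp)
    t3) hCm) hH0) t4).trans ?_
  rw [← add_mul]
  refine mul_le_mul_of_nonneg_right ?_ hH0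
  rw [mul_assoc _ (R ^ e), mul_add (R ^ e), mul_assoc K, mul_comm (ε ^ cf)]
  generalize R ^ e * ε ^ cf = P at *
  generalize R ^ e * R ^ (-cf) = Q at *
  have w1 : 0 ≤ Cm * Cp * K * Q := by positivity
  have w2 : 0 ≤ Cm * Cp * P := by positivity
  have w3 : 0 ≤ Cm * P := by positivity
  have w4 : 0 ≤ Ct * P := by positivity
  have w5 : 0 ≤ (3 * R₁) ^ (d + 1) * (P + Q) := by positivity
  nlinarith only [w1, w2, w3, w4, w5]

end Crest.Agent.N76.II.B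
end

-- ▼ part N76/Final

/-! # Row 76 (S0101): the final assembly (helper73). -/

set_option autoImplicit false

namespace Crest.Agent.N76.Fin73

open L

/-- Lemma G in every dimension -/
theorem lemG (k : ℕ) (hk : 1 ≤ k) : L.LemG k :=
  LG.lemG_of k hk (LG.lemGZ R070.RingB936.br (by simp) hk)

theorem dec (n : ℕ) : ∀ κ ≤ n, DEC n κ := dec_of (bas1 n) (bas2 n) (core n)

theorem sg {d : ℕ} (hd : 1 ≤ d) : II.SG d := sg_of (build d hd) (sga_of (bas1 d) (dec d d le_rfl))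

theorem prof {n k : ℕ} (hk : 1 ≤ k) (hkn : k ≤ n) : Prof n k :=
  prof_of (bas1 n) (bas2 n) (core n) (dec n k hkn) (dec n (k - 1) (by omega))
    (Bw.brw_of (lemG k hk) hk hkn) hk hkn

theorem tia {n : ℕ} (hn : 2 ≤ n) : TIa n :=
  tia_of (bas1 n) (bas2 n) (dec n _ (by omega)) (dec n _ (by omega))
    (kill_of (bas1 n) (bas2 n) (core n) (dec n n le_rfl) (dec n _ (by omega))
      (prof (by omega) le_rfl) hn)
    (prof (by omega) (by omega)) hn

/-- **the single scale theorem** -/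
theorem ss {n : ℕ} (hn : 2 ≤ n) : Red.SS n := by
  obtain ⟨d, rfl⟩ : ∃ d, n = d + 1 := ⟨n - 1, by omega⟩
  have hd : 1 ≤ d := by omega
  obtain ⟨h1, h2, h3⟩ := ti_of (build _ (by omega)) (tia hn) (Pk.plank _ (by omega)) hn
  exact II.ss_of' d hd h2 h3 (II.B.tii_of d hd h1 (II.lp_of_sg d hd (sg hd)))

end Crest.Agent.N76.Fin73
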